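import Mathlib
import Vale.Agent.Lib.P137.helper41.Defs

/-!
Pool job P137-BR6 (helper18, backup copy): for an antitone nonnegative `G`, the integral of
`|G'|` over `(ρ, ∞)` is at most `G ρ`.
-/

namespace Vale.Agent.Lib.P137.H18

open Vale.Agent.Lib.P137 MeasureTheory Metric Set Filter
open scoped ENNReal NNReal Topology

/-- On a bounded interval. -/
lemma lintegral_Ioc_deriv_le (G : ℝ → ℝ) (hG : Antitone G) (hG0 : ∀ t, 0 ≤ G t) (ρ b : ℝ)
    (hb : ρ ≤ b) :
    ∫⁻ s in Ioc ρ b, ENNReal.ofReal |deriv G s| ≤ ENNReal.ofReal (G ρ) := by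
  have hf : Monotone (fun t => -G t) := fun x y hxy => neg_le_neg (hG hxy)
  have hderiv : ∀ s, deriv (fun t => -G t) s = -deriv G s := fun s => deriv.fun_neg
  have hnn : ∀ s, 0 ≤ deriv (fun t => -G t) s := fun s => hf.deriv_nonneg
  have habs : ∀ s, |deriv G s| = deriv (fun t => -G t) s := by
    intro s
    have h1 := hnn s
    rw [hderiv s] at h1 ⊢
    rw [abs_of_nonpos (by linarith)]
  have hint : IntervalIntegrable (deriv (fun t => -G t)) volume ρ b :=
    (hf.monotoneOn _).intervalIntegrable_deriv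
  have hmem := (hf.monotoneOn (uIcc ρ b)).intervalIntegral_deriv_mem_uIcc
  have hle : ∫ x in ρ..b, deriv (fun t => -G t) x ≤ G ρ := by
    have h2 : (-G b - -G ρ) ≥ 0 := by have := hG hb; linarith
    rw [uIcc_of_le h2, mem_Icc] at hmem
    have := hG0 b
    linarith [hmem.2]
  have hint' : Integrable (deriv (fun t => -G t)) (volume.restrict (Ioc ρ b)) :=
    (intervalIntegrable_iff_integrableOn_Ioc_of_le hb).mp hint
  calc ∫⁻ s in Ioc ρ b, ENNReal.ofReal |deriv G s|
      = ∫⁻ s in Ioc ρ b, ENNReal.ofReal (deriv (fun t => -G t) s) := by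
        simp_rw [habs]
    _ = ENNReal.ofReal (∫ s in Ioc ρ b, deriv (fun t => -G t) s) :=
        (ofReal_integral_eq_lintegral_ofReal hint' (Filter.Eventually.of_forall hnn)).symm
    _ ≤ ENNReal.ofReal (G ρ) := by
        apply ENNReal.ofReal_le_ofReal
        rw [← intervalIntegral.integral_of_le hb]
        exact hle

/-- Job P137-BR6, exact statement. -/
theorem tail_deriv_le (G : ℝ → ℝ) (hG : Antitone G) (hG0 : ∀ t, 0 ≤ G t) (ρ : ℝ) :
    ∫⁻ s in Ioi ρ, ENNReal.ofReal |deriv G s| ≤ ENNReal.ofReal (G ρ) := by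
  have hU : (⋃ n : ℕ, Ioc ρ (ρ + n)) = Ioi ρ := by
    ext x
    simp only [mem_iUnion, mem_Ioc, mem_Ioi]
    constructor
    · rintro ⟨n, h1, _⟩
      exact h1
    · intro hx
      obtain ⟨n, hn⟩ := exists_nat_ge (x - ρ)
      exact ⟨n, hx, by linarith⟩
  have hdir : Directed (· ⊆ ·) (fun n : ℕ => Ioc ρ (ρ + n)) := by
    apply Monotone.directed_le
    intro n k hnk
    apply Ioc_subset_Ioc_right
    have : (n : ℝ) ≤ k := by exact_mod_cast hnk
    linarith
  rw [← hU, setLIntegral_iUnion_of_directed _ hdir]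
  apply iSup_le
  intro n
  exact lintegral_Ioc_deriv_le G hG hG0 ρ (ρ + n) (by have : (0 : ℝ) ≤ n := Nat.cast_nonneg n; linarith)

end Vale.Agent.Lib.P137.H18
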